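import Mathlib

namespace Vale.Agent.Lib.P084

open Real

variable {Y : Type*} [NormedAddCommGroup Y] [NormedSpace ℝ Y]

/-- the point at angle `θ` of the curve through `u` and `v` -/
noncomputable def E (u v : Y) (θ : ℝ) : Y := cos θ • u + sin θ • v

theorem E_add (u v : Y) (m δ : ℝ) :
    E u v (m + δ) + E u v (m - δ) = (2 * cos δ) • E u v m := by
  unfold E
  rw [cos_add, cos_sub, sin_add, sin_sub]
  module

theorem E_sub (u v : Y) (m δ : ℝ) :
    E u v (m + δ) - E u v (m - δ) = (2 * sin δ) • E u v (m + π / 2) := by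
  unfold E
  rw [cos_add, cos_sub, sin_add, sin_sub, cos_add_pi_div_two, sin_add_pi_div_two]
  module

theorem E_add_pi (u v : Y) (θ : ℝ) : E u v (θ + π) = - E u v θ := by
  unfold E
  rw [cos_add_pi, sin_add_pi]
  module

theorem continuous_norm_E (u v : Y) : Continuous fun θ : ℝ => ‖E u v θ‖ := by
  unfold E
  fun_prop

theorem sq_eq_one_of_nonneg {r : ℝ} (h0 : 0 ≤ r) (h : r ^ 2 = 1) : r = 1 := by
  nlinarith

/-- the key step: from four unit points of the curve to the two bisecting points -/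
theorem mid_mem (hD : ∀ p q : Y, ‖p‖ = 1 → ‖q‖ = 1 → ‖p + q‖ ^ 2 + ‖p - q‖ ^ 2 = 4)
    (u v : Y) (m δ : ℝ)
    (h1 : ‖E u v (m + δ)‖ = 1) (h2 : ‖E u v (m - δ)‖ = 1)
    (h3 : ‖E u v (m + δ + π / 2)‖ = 1) (h4 : ‖E u v (m - δ + π / 2)‖ = 1)
    (hc : cos (2 * δ) ≠ 0) :
    ‖E u v m‖ = 1 ∧ ‖E u v (m + π / 2)‖ = 1 := by
  have e1 := hD _ _ h1 h2
  rw [E_add, E_sub, norm_smul, norm_smul] at e1
  have h3' : ‖E u v (m + π / 2 + δ)‖ = 1 := by
    have : m + π / 2 + δ = m + δ + π / 2 := by ring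
    rw [this]; exact h3
  have h4' : ‖E u v (m + π / 2 - δ)‖ = 1 := by
    have : m + π / 2 - δ = m - δ + π / 2 := by ring
    rw [this]; exact h4
  have e2 := hD _ _ h3' h4'
  rw [E_add, E_sub, norm_smul, norm_smul] at e2
  have hpi : E u v (m + π / 2 + π / 2) = - E u v m := by
    have : m + π / 2 + π / 2 = m + π := by ring
    rw [this, E_add_pi]
  rw [hpi, norm_neg] at e2
  set X := ‖E u v m‖ with hX
  set Z := ‖E u v (m + π / 2)‖ with hZ
  have hX0 : 0 ≤ X := norm_nonneg _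
  have hZ0 : 0 ≤ Z := norm_nonneg _
  have hcs : cos δ ^ 2 + sin δ ^ 2 = 1 := cos_sq_add_sin_sq δ
  have hc2 : cos (2 * δ) = cos δ ^ 2 - sin δ ^ 2 := by
    rw [cos_two_mul, ← hcs]; ring
  have f1 : cos δ ^ 2 * X ^ 2 + sin δ ^ 2 * Z ^ 2 = 1 := by
    have : (‖2 * cos δ‖ * X) ^ 2 + (‖2 * sin δ‖ * Z) ^ 2 = 4 := e1
    rw [mul_pow, mul_pow, norm_eq_abs, norm_eq_abs, sq_abs, sq_abs] at this
    nlinarith
  have f2 : cos δ ^ 2 * Z ^ 2 + sin δ ^ 2 * X ^ 2 = 1 := by
    have : (‖2 * cos δ‖ * Z) ^ 2 + (‖2 * sin δ‖ * X) ^ 2 = 4 := e2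
    rw [mul_pow, mul_pow, norm_eq_abs, norm_eq_abs, sq_abs, sq_abs] at this
    nlinarith
  have f3 : (cos δ ^ 2 - sin δ ^ 2) * (X ^ 2 - Z ^ 2) = 0 := by nlinarith
  have f4 : X ^ 2 = Z ^ 2 := by
    rcases mul_eq_zero.1 f3 with h | h
    · exact absurd (hc2.trans h) hc
    · linarith
  have f5 : X ^ 2 = 1 := by
    have : (cos δ ^ 2 + sin δ ^ 2) * X ^ 2 = 1 := by rw [f4] at f1 ⊢; linarith
    rw [hcs, one_mul] at this
    exact this
  exact ⟨sq_eq_one_of_nonneg hX0 f5, sq_eq_one_of_nonneg hZ0 (f4 ▸ f5)⟩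

/-- a closed set of reals containing the end points of an interval and closed under midpoints
inside the interval contains the interval -/
theorem interval_sub (S : Set ℝ) (hS : IsClosed S) (lo hi : ℝ) (hlo : lo ∈ S) (hhi : hi ∈ S)
    (hmid : ∀ a ∈ S, ∀ b ∈ S, lo ≤ a → a ≤ b → b ≤ hi → (a + b) / 2 ∈ S) :
    ∀ x, lo ≤ x → x ≤ hi → x ∈ S := by
  intro x hx1 hx2
  have hA : IsClosed (S ∩ Set.Icc lo x) := hS.inter isClosed_Icc
  have hB : IsClosed (S ∩ Set.Icc x hi) := hS.inter isClosed_Icc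
  have hAne : (S ∩ Set.Icc lo x).Nonempty := ⟨lo, hlo, le_rfl, hx1⟩
  have hBne : (S ∩ Set.Icc x hi).Nonempty := ⟨hi, hhi, hx2, le_rfl⟩
  have hAb : BddAbove (S ∩ Set.Icc lo x) := ⟨x, fun y hy => hy.2.2⟩
  have hBb : BddBelow (S ∩ Set.Icc x hi) := ⟨x, fun y hy => hy.2.1⟩
  have ha := hA.csSup_mem hAne hAb
  have hb := hB.csInf_mem hBne hBb
  set a := sSup (S ∩ Set.Icc lo x) with hadef
  set b := sInf (S ∩ Set.Icc x hi) with hbdef
  have hm := hmid a ha.1 b hb.1 ha.2.1 (le_trans ha.2.2 hb.2.1) hb.2.2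
  have hab : b ≤ a := by
    by_cases hc : (a + b) / 2 ≤ x
    · have : (a + b) / 2 ≤ a := le_csSup hAb ⟨hm, by linarith [ha.2.1, hb.2.1], hc⟩
      linarith
    · have : b ≤ (a + b) / 2 := csInf_le hBb ⟨hm, by linarith, by linarith [ha.2.2, hb.2.2]⟩
      linarith
  have : x = a := le_antisymm (le_trans hb.2.1 hab) ha.2.2
  rw [this]
  exact ha.1

/-- on the quarter circle between `u` and `v` the curve stays on the unit sphere -/
theorem quarter (hD : ∀ p q : Y, ‖p‖ = 1 → ‖q‖ = 1 → ‖p + q‖ ^ 2 + ‖p - q‖ ^ 2 = 4)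
    (u v : Y) (hu : ‖u‖ = 1) (hv : ‖v‖ = 1) (huv : ‖u + v‖ = ‖u - v‖) :
    ∀ θ, 0 ≤ θ → θ ≤ π / 2 → ‖E u v θ‖ = 1 := by
  set S : Set ℝ := {θ | ‖E u v θ‖ = 1 ∧ ‖E u v (θ + π / 2)‖ = 1} with hSdef
  have hS : IsClosed S := by
    have h1 : IsClosed {θ : ℝ | ‖E u v θ‖ = 1} :=
      isClosed_eq (continuous_norm_E u v) continuous_const
    have h2 : IsClosed {θ : ℝ | ‖E u v (θ + π / 2)‖ = 1} :=
      isClosed_eq ((continuous_norm_E u v).comp (continuous_id.add continuous_const))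
        continuous_const
    exact h1.inter h2
  have hpi := pi_pos
  have E0 : E u v 0 = u := by unfold E; simp
  have Ehalf : E u v (π / 2) = v := by unfold E; simp
  have Epi : E u v π = - u := by unfold E; simp
  have h0 : (0 : ℝ) ∈ S := by
    refine ⟨by rw [E0]; exact hu, ?_⟩
    rw [zero_add, Ehalf]; exact hv
  have hhalf : (π / 2 : ℝ) ∈ S := by
    refine ⟨by rw [Ehalf]; exact hv, ?_⟩
    have : π / 2 + π / 2 = π := by ring
    rw [this, Epi, norm_neg]; exact hu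
  have hsq : ‖u + v‖ ^ 2 = 2 := by
    have := hD u v hu hv
    rw [← huv] at this
    linarith
  have hquarter : (π / 4 : ℝ) ∈ S := by
    have e1 : E u v (π / 4) = (√2 / 2) • (u + v) := by
      unfold E; rw [cos_pi_div_four, sin_pi_div_four]; module
    have e2 : E u v (π / 4 + π / 2) = (√2 / 2) • (v - u) := by
      unfold E
      rw [cos_add_pi_div_two, sin_add_pi_div_two, cos_pi_div_four, sin_pi_div_four]; module
    have hs2 : (0 : ℝ) ≤ √2 / 2 := by positivity
    have hs : (√2 / 2 : ℝ) ^ 2 * 2 = 1 := by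
      have : (√2 : ℝ) ^ 2 = 2 := sq_sqrt (by norm_num)
      nlinarith
    constructor
    · rw [e1, norm_smul, norm_of_nonneg hs2]
      apply sq_eq_one_of_nonneg (by positivity)
      rw [mul_pow, hsq]; exact hs
    · rw [e2, norm_smul, norm_of_nonneg hs2, ← norm_neg, neg_sub, ← huv]
      apply sq_eq_one_of_nonneg (by positivity)
      rw [mul_pow, hsq]; exact hs
  have hmidS : ∀ a ∈ S, ∀ b ∈ S, a ≤ b → b - a ≤ π / 4 → (a + b) / 2 ∈ S := by
    intro a ha b hb hab hd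
    have e1 : (a + b) / 2 + (b - a) / 2 = b := by ring
    have e2 : (a + b) / 2 - (b - a) / 2 = a := by ring
    refine mid_mem hD u v ((a + b) / 2) ((b - a) / 2) ?_ ?_ ?_ ?_ ?_
    · rw [e1]; exact hb.1
    · rw [e2]; exact ha.1
    · rw [e1]; exact hb.2
    · rw [e2]; exact ha.2
    · have : 2 * ((b - a) / 2) = b - a := by ring
      rw [this]
      exact (cos_pos_of_mem_Ioo ⟨by linarith, by linarith⟩).ne'
  have hA : ∀ x, 0 ≤ x → x ≤ π / 4 → x ∈ S :=
    interval_sub S hS 0 (π / 4) h0 hquarter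
      (fun a ha b hb h1 h2 h3 => hmidS a ha b hb h2 (by linarith))
  have hB : ∀ x, π / 4 ≤ x → x ≤ π / 2 → x ∈ S :=
    interval_sub S hS (π / 4) (π / 2) hquarter hhalf
      (fun a ha b hb h1 h2 h3 => hmidS a ha b hb h2 (by linarith))
  intro θ h1 h2
  by_cases hθ : θ ≤ π / 4
  · exact (hA θ h1 hθ).1
  · exact (hB θ (by linarith) h2).1

theorem norm_sq_nonneg_case (hD : ∀ p q : Y, ‖p‖ = 1 → ‖q‖ = 1 → ‖p + q‖ ^ 2 + ‖p - q‖ ^ 2 = 4)
    (u v : Y) (hu : ‖u‖ = 1) (hv : ‖v‖ = 1) (huv : ‖u + v‖ = ‖u - v‖)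
    (a b : ℝ) (ha : 0 ≤ a) (hb : 0 ≤ b) : ‖a • u + b • v‖ ^ 2 = a ^ 2 + b ^ 2 := by
  by_cases h0 : a ^ 2 + b ^ 2 = 0
  · have ha0 : a = 0 := by nlinarith
    have hb0 : b = 0 := by nlinarith
    subst ha0; subst hb0
    simp
  · have hpos : 0 < a ^ 2 + b ^ 2 := lt_of_le_of_ne (by positivity) (Ne.symm h0)
    set ρ := √(a ^ 2 + b ^ 2) with hρ
    have hρpos : 0 < ρ := sqrt_pos.2 hpos
    have hρsq : ρ ^ 2 = a ^ 2 + b ^ 2 := sq_sqrt hpos.le
    have hx0 : 0 ≤ a / ρ := div_nonneg ha hρpos.le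
    have hx1 : a / ρ ≤ 1 := by
      rw [div_le_one hρpos]
      exact le_sqrt_of_sq_le (by nlinarith) |>.trans_eq hρ.symm |> fun h => h
    set θ := arccos (a / ρ) with hθ
    have hcos : cos θ = a / ρ := cos_arccos (by linarith) hx1
    have hsin : sin θ = b / ρ := by
      rw [hθ, sin_arccos]
      have : 1 - (a / ρ) ^ 2 = (b / ρ) ^ 2 := by
        field_simp
        nlinarith
      rw [this]
      exact sqrt_sq (div_nonneg hb hρpos.le)
    have hθ0 : 0 ≤ θ := arccos_nonneg _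
    have hθ1 : θ ≤ π / 2 := arccos_le_pi_div_two.2 hx0
    have hE := quarter hD u v hu hv huv θ hθ0 hθ1
    have e : a • u + b • v = ρ • E u v θ := by
      unfold E
      rw [hcos, hsin, smul_add, smul_smul, smul_smul]
      congr 2 <;> field_simp
    rw [e, norm_smul, hE, mul_one, norm_of_nonneg hρpos.le, hρsq]

theorem norm_sq_general (hD : ∀ p q : Y, ‖p‖ = 1 → ‖q‖ = 1 → ‖p + q‖ ^ 2 + ‖p - q‖ ^ 2 = 4)
    (u v : Y) (hu : ‖u‖ = 1) (hv : ‖v‖ = 1) (huv : ‖u + v‖ = ‖u - v‖)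
    (a b : ℝ) : ‖a • u + b • v‖ ^ 2 = a ^ 2 + b ^ 2 := by
  have hu' : ‖-u‖ = 1 := by rw [norm_neg]; exact hu
  have hv' : ‖-v‖ = 1 := by rw [norm_neg]; exact hv
  have k1 : ‖-u + v‖ = ‖-u - v‖ := by
    have e1 : -u + v = -(u - v) := by abel
    have e2 : -u - v = -(u + v) := by abel
    rw [e1, e2, norm_neg, norm_neg]; exact huv.symm
  have k2 : ‖u + -v‖ = ‖u - -v‖ := by
    rw [← sub_eq_add_neg, sub_neg_eq_add]; exact huv.symm
  have k3 : ‖-u + -v‖ = ‖-u - -v‖ := by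
    have e1 : -u + -v = -(u + v) := by abel
    have e2 : -u - -v = -(u - v) := by abel
    rw [e1, e2, norm_neg, norm_neg]; exact huv
  rcases le_total 0 a with ha | ha <;> rcases le_total 0 b with hb | hb
  · exact norm_sq_nonneg_case hD u v hu hv huv a b ha hb
  · have := norm_sq_nonneg_case hD u (-v) hu hv' k2 a (-b) ha (by linarith)
    have e : a • u + -b • -v = a • u + b • v := by module
    rw [e] at this
    rw [this]; ring
  · have := norm_sq_nonneg_case hD (-u) v hu' hv k1 (-a) b (by linarith) hb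
    have e : -a • -u + b • v = a • u + b • v := by module
    rw [e] at this
    rw [this]; ring
  · have := norm_sq_nonneg_case hD (-u) (-v) hu' hv' k3 (-a) (-b) (by linarith) (by linarith)
    have e : -a • -u + -b • -v = a • u + b • v := by module
    rw [e] at this
    rw [this]; ring

/-- a unit vector `u` along `x` and a unit vector `v` in the plane of `x` and `y` with
`‖u + v‖ = ‖u - v‖` -/
theorem exists_good_basis (x y : Y) (hx : x ≠ 0) (hind : ¬ ∃ c : ℝ, y = c • x) :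
    ∃ u v : Y, ‖u‖ = 1 ∧ ‖v‖ = 1 ∧ ‖u + v‖ = ‖u - v‖ ∧ (∃ a : ℝ, x = a • u) ∧
      (∃ a b : ℝ, y = a • u + b • v) := by
  have hxn : ‖x‖ ≠ 0 := norm_ne_zero_iff.2 hx
  set u : Y := ‖x‖⁻¹ • x with hu_def
  have hu : ‖u‖ = 1 := by
    rw [hu_def, norm_smul, norm_inv, norm_norm, inv_mul_cancel₀ hxn]
  have hu0 : u ≠ 0 := by
    intro h; rw [h, norm_zero] at hu; exact zero_ne_one hu
  have hxu : x = ‖x‖ • u := by
    rw [hu_def, smul_smul, mul_inv_cancel₀ hxn, one_smul]
  set γ : ℝ → Y := fun t => cos t • u + sin t • y with hγ_def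
  have hγ0 : ∀ t, γ t ≠ 0 := by
    intro t h0
    by_cases hs : sin t = 0
    · have hc : cos t ≠ 0 := by
        intro hc
        have := cos_sq_add_sin_sq t
        rw [hc, hs] at this
        norm_num at this
      have h1 : cos t • u = 0 := by
        have : γ t = cos t • u := by simp [hγ_def, hs]
        rw [← this]; exact h0
      rcases smul_eq_zero.1 h1 with h | h
      · exact hc h
      · exact hu0 h
    · apply hind
      refine ⟨-(cos t / sin t) * ‖x‖⁻¹, ?_⟩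
      have h1 : sin t • y = -(cos t • u) := by
        have : cos t • u + sin t • y = 0 := h0
        exact eq_neg_of_add_eq_zero_right this
      have h2 : y = (sin t)⁻¹ • (sin t • y) := by
        rw [smul_smul, inv_mul_cancel₀ hs, one_smul]
      rw [h2, h1, hu_def, smul_neg, smul_smul, smul_smul, ← neg_smul]
      congr 1
      field_simp
  set ψ : ℝ → ℝ := fun t => ‖‖γ t‖ • u + γ t‖ - ‖‖γ t‖ • u - γ t‖ with hψ_def
  have hψc : Continuous ψ := by
    rw [hψ_def, hγ_def]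
    fun_prop
  have g0 : γ 0 = u := by simp [hγ_def]
  have gpi : γ π = -u := by simp [hγ_def]
  have hψ0 : ψ 0 = 2 := by
    have h2u : ‖u + u‖ = 2 := by
      have : u + u = (2 : ℝ) • u := by rw [two_smul]
      rw [this, norm_smul, hu]; norm_num
    simp only [hψ_def, g0, hu, one_smul, sub_self, norm_zero, sub_zero]
    exact h2u
  have hψpi : ψ π = -2 := by
    have h2u : ‖u + u‖ = 2 := by
      have : u + u = (2 : ℝ) • u := by rw [two_smul]
      rw [this, norm_smul, hu]; norm_num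
    simp only [hψ_def, gpi, norm_neg, hu, one_smul, add_neg_cancel, norm_zero, sub_neg_eq_add,
      zero_sub]
    rw [h2u]
  have hivt := intermediate_value_Icc' (a := (0 : ℝ)) (b := π) pi_pos.le hψc.continuousOn
  have hmem : (0 : ℝ) ∈ Set.Icc (ψ π) (ψ 0) := by
    rw [hψ0, hψpi]; constructor <;> norm_num
  obtain ⟨t, _, ht⟩ := hivt hmem
  have hlpos : 0 < ‖γ t‖ := norm_pos_iff.2 (hγ0 t)
  set l := ‖γ t‖ with hl
  obtain ⟨v, hv_def⟩ : ∃ v : Y, v = l⁻¹ • γ t := ⟨_, rfl⟩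
  have hv : ‖v‖ = 1 := by
    rw [hv_def, norm_smul, norm_inv, norm_norm, ← hl, inv_mul_cancel₀ hlpos.ne']
  have hgv : γ t = l • v := by
    rw [hv_def, smul_smul, mul_inv_cancel₀ hlpos.ne', one_smul]
  have huv : ‖u + v‖ = ‖u - v‖ := by
    have h1 : ‖l • u + γ t‖ = ‖l • u - γ t‖ := by
      have : ψ t = 0 := ht
      simp only [hψ_def] at this
      linarith
    rw [hgv, ← smul_add, ← smul_sub, norm_smul, norm_smul, norm_of_nonneg hlpos.le] at h1
    exact mul_left_cancel₀ hlpos.ne' h1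
  have hs : sin t ≠ 0 := by
    intro hs
    have hc2 : cos t ^ 2 = 1 := by
      have := cos_sq_add_sin_sq t
      rw [hs] at this
      linarith
    have hgt : γ t = cos t • u := by simp [hγ_def, hs]
    have h2u : ‖u + u‖ = 2 := by
      have : u + u = (2 : ℝ) • u := by rw [two_smul]
      rw [this, norm_smul, hu]; norm_num
    have hψt : ψ t = 0 := ht
    have hc' : cos t = 1 ∨ cos t = -1 := by
      have h0 : (cos t - 1) * (cos t + 1) = 0 := by nlinarith
      rcases mul_eq_zero.1 h0 with h | h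
      · left; linarith
      · right; linarith
    rcases hc' with hc | hc
    · rw [hc, one_smul] at hgt
      have : ψ t = 2 := by
        simp only [hψ_def, hgt, hu, one_smul, sub_self, norm_zero, sub_zero]
        exact h2u
      rw [this] at hψt
      norm_num at hψt
    · rw [hc, neg_one_smul] at hgt
      have : ψ t = -2 := by
        simp only [hψ_def, hgt, norm_neg, hu, one_smul, add_neg_cancel, norm_zero,
          sub_neg_eq_add, zero_sub]
        rw [h2u]
      rw [this] at hψt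
      norm_num at hψt
  refine ⟨u, v, hu, hv, huv, ⟨‖x‖, hxu⟩, ⟨-(cos t / sin t), l / sin t, ?_⟩⟩
  have h1 : sin t • y = l • v - cos t • u := by
    rw [← hgv]
    simp [hγ_def]
  have h2 : y = (sin t)⁻¹ • (sin t • y) := by
    rw [smul_smul, inv_mul_cancel₀ hs, one_smul]
  rw [h2, h1, smul_sub, smul_smul, smul_smul]
  have e1 : (sin t)⁻¹ * l = l / sin t := by field_simp
  have e2 : (sin t)⁻¹ * cos t = cos t / sin t := by field_simp
  rw [e1, e2]
  module

/-- Day's theorem: the rhombus law implies the parallelogram law -/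
theorem day_parallelogram
    (hD : ∀ p q : Y, ‖p‖ = 1 → ‖q‖ = 1 → ‖p + q‖ ^ 2 + ‖p - q‖ ^ 2 = 4) (x y : Y) :
    ‖x + y‖ ^ 2 + ‖x - y‖ ^ 2 = 2 * (‖x‖ ^ 2 + ‖y‖ ^ 2) := by
  by_cases hx : x = 0
  · subst hx
    simp only [zero_add, zero_sub, norm_neg, norm_zero]
    ring
  by_cases hdep : ∃ c : ℝ, y = c • x
  · obtain ⟨c, rfl⟩ := hdep
    have e1 : x + c • x = (1 + c) • x := by module
    have e2 : x - c • x = (1 - c) • x := by module
    rw [e1, e2, norm_smul, norm_smul, norm_smul, mul_pow, mul_pow, mul_pow, norm_eq_abs,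
      norm_eq_abs, norm_eq_abs, sq_abs, sq_abs, sq_abs]
    ring
  · obtain ⟨u, v, hu, hv, huv, ⟨a0, hxa⟩, ⟨a, b, hyab⟩⟩ := exists_good_basis x y hx hdep
    have e1 : x + y = (a0 + a) • u + b • v := by rw [hxa, hyab]; module
    have e2 : x - y = (a0 - a) • u + (-b) • v := by rw [hxa, hyab]; module
    have e3 : x = a0 • u + (0 : ℝ) • v := by rw [hxa]; module
    rw [e1, e2, norm_sq_general hD u v hu hv huv, norm_sq_general hD u v hu hv huv]
    have e4 := norm_sq_general hD u v hu hv huv a0 0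
    have e5 := norm_sq_general hD u v hu hv huv a b
    rw [← e3] at e4
    rw [← hyab] at e5
    rw [e4, e5]
    ring

end Vale.Agent.Lib.P084
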