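import Vale.Agent.Lib.P084.Day

namespace Vale.Agent.Lib.P084

open Metric
open scoped RealInnerProductSpace

section general

variable {X : Type*} [NormedAddCommGroup X] [InnerProductSpace ℝ X]

theorem eq_neg_of_norm_sub_eq_two (u z : X) (hu : ‖u‖ = 1) (hz : ‖z‖ = 1) (h : ‖z - u‖ = 2) :
    z = -u := by
  have hp := parallelogram_law_with_norm ℝ z u
  rw [h, hu, hz] at hp
  have h0 : ‖z + u‖ * ‖z + u‖ = 0 := by linarith
  have h1 : ‖z + u‖ = 0 := by
    rcases mul_eq_zero.1 h0 with h | h <;> exact h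
  exact eq_neg_of_add_eq_zero_left (norm_eq_zero.1 h1)

variable {Y : Type*} [NormedAddCommGroup Y] [NormedSpace ℝ Y]

omit [InnerProductSpace ℝ X] [NormedSpace ℝ Y] in
theorem norm_sub_map (f : sphere (0 : X) 1 → sphere (0 : Y) 1) (hf : Isometry f)
    (u v : sphere (0 : X) 1) : ‖(f u : Y) - f v‖ = ‖(u : X) - v‖ := by
  have h := hf.dist_eq u v
  rw [Subtype.dist_eq, Subtype.dist_eq, dist_eq_norm, dist_eq_norm] at h
  exact h

theorem map_neg_sphere (f : sphere (0 : X) 1 → sphere (0 : Y) 1) (hf : Isometry f)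
    (hs : Function.Surjective f) (u : sphere (0 : X) 1) : f (-u) = -f u := by
  obtain ⟨z, hz⟩ := hs (-f u)
  have h1 := norm_sub_map f hf z u
  rw [hz, coe_neg_sphere] at h1
  have hfu : ‖(f u : Y)‖ = 1 := mem_sphere_zero_iff_norm.1 (f u).2
  have h2 : ‖-(f u : Y) - f u‖ = 2 := by
    have e : -(f u : Y) - f u = (-2 : ℝ) • (f u : Y) := by module
    rw [e, norm_smul, hfu]
    norm_num
  rw [h2] at h1
  have h3 := eq_neg_of_norm_sub_eq_two (u : X) (z : X) (mem_sphere_zero_iff_norm.1 u.2)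
    (mem_sphere_zero_iff_norm.1 z.2) h1.symm
  have h4 : z = -u := Subtype.ext (by rw [coe_neg_sphere]; exact h3)
  rw [← h4]
  exact hz

theorem norm_add_map (f : sphere (0 : X) 1 → sphere (0 : Y) 1) (hf : Isometry f)
    (hs : Function.Surjective f) (u v : sphere (0 : X) 1) :
    ‖(f u : Y) + f v‖ = ‖(u : X) + v‖ := by
  have h := norm_sub_map f hf u (-v)
  rw [map_neg_sphere f hf hs v, coe_neg_sphere, coe_neg_sphere, sub_neg_eq_add,
    sub_neg_eq_add] at h
  exact h

theorem rhombus_of_sphere_isometry (f : sphere (0 : X) 1 → sphere (0 : Y) 1) (hf : Isometry f)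
    (hs : Function.Surjective f) (p q : Y) (hp : ‖p‖ = 1) (hq : ‖q‖ = 1) :
    ‖p + q‖ ^ 2 + ‖p - q‖ ^ 2 = 4 := by
  obtain ⟨u, hu⟩ := hs ⟨p, mem_sphere_zero_iff_norm.2 hp⟩
  obtain ⟨v, hv⟩ := hs ⟨q, mem_sphere_zero_iff_norm.2 hq⟩
  have hp' : p = (f u : Y) := by rw [hu]
  have hq' : q = (f v : Y) := by rw [hv]
  rw [hp', hq', norm_add_map f hf hs, norm_sub_map f hf]
  have h := parallelogram_law_with_norm ℝ (u : X) (v : X)
  rw [mem_sphere_zero_iff_norm.1 u.2, mem_sphere_zero_iff_norm.1 v.2] at h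
  nlinarith

end general

section inner

variable {X : Type*} [NormedAddCommGroup X] [InnerProductSpace ℝ X]
variable {Y : Type*} [NormedAddCommGroup Y] [InnerProductSpace ℝ Y]

theorem inner_map (f : sphere (0 : X) 1 → sphere (0 : Y) 1) (hf : Isometry f)
    (u v : sphere (0 : X) 1) : ⟪(f u : Y), (f v : Y)⟫ = ⟪(u : X), (v : X)⟫ := by
  have h := norm_sub_map f hf u v
  have h1 := norm_sub_sq_real (f u : Y) (f v : Y)
  have h2 := norm_sub_sq_real (u : X) (v : X)
  rw [h, mem_sphere_zero_iff_norm.1 (f u).2, mem_sphere_zero_iff_norm.1 (f v).2] at h1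
  rw [mem_sphere_zero_iff_norm.1 u.2, mem_sphere_zero_iff_norm.1 v.2] at h2
  linarith

open Classical in
/-- the map `f` as a map on all of `X`, with value `0` off the unit sphere -/
noncomputable def onUnit (f : sphere (0 : X) 1 → sphere (0 : Y) 1) (x : X) : Y :=
  if h : x ∈ sphere (0 : X) 1 then (f ⟨x, h⟩ : Y) else 0

/-- the positively homogeneous extension of `f` -/
noncomputable def homExt (f : sphere (0 : X) 1 → sphere (0 : Y) 1) (x : X) : Y :=
  ‖x‖ • onUnit f (‖x‖⁻¹ • x)

omit [InnerProductSpace ℝ X] [InnerProductSpace ℝ Y] in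
theorem onUnit_coe (f : sphere (0 : X) 1 → sphere (0 : Y) 1) (u : sphere (0 : X) 1) :
    onUnit f (u : X) = f u := by
  unfold onUnit
  rw [dif_pos u.2]

theorem normalize_mem (x : X) (hx : x ≠ 0) : ‖x‖⁻¹ • x ∈ sphere (0 : X) 1 := by
  rw [mem_sphere_zero_iff_norm, norm_smul, norm_inv, norm_norm,
    inv_mul_cancel₀ (norm_ne_zero_iff.2 hx)]

theorem homExt_coe (f : sphere (0 : X) 1 → sphere (0 : Y) 1) (u : sphere (0 : X) 1) :
    homExt f (u : X) = f u := by
  unfold homExt
  rw [mem_sphere_zero_iff_norm.1 u.2, inv_one, one_smul, one_smul, onUnit_coe]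

theorem inner_homExt (f : sphere (0 : X) 1 → sphere (0 : Y) 1) (hf : Isometry f) (x y : X) :
    ⟪homExt f x, homExt f y⟫ = ⟪x, y⟫ := by
  by_cases hx : x = 0
  · subst hx
    simp [homExt]
  by_cases hy : y = 0
  · subst hy
    simp [homExt]
  have hxn : ‖x‖ ≠ 0 := norm_ne_zero_iff.2 hx
  have hyn : ‖y‖ ≠ 0 := norm_ne_zero_iff.2 hy
  have h := inner_map f hf ⟨_, normalize_mem x hx⟩ ⟨_, normalize_mem y hy⟩
  have e1 : homExt f x = ‖x‖ • (f ⟨_, normalize_mem x hx⟩ : Y) := by
    unfold homExt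
    rw [← onUnit_coe]
  have e2 : homExt f y = ‖y‖ • (f ⟨_, normalize_mem y hy⟩ : Y) := by
    unfold homExt
    rw [← onUnit_coe]
  rw [e1, e2, real_inner_smul_left, real_inner_smul_right, h]
  simp only [real_inner_smul_left, real_inner_smul_right]
  field_simp

theorem norm_sq_homExt_sub (f : sphere (0 : X) 1 → sphere (0 : Y) 1) (hf : Isometry f)
    (a b c : X) : ‖homExt f a - homExt f b - homExt f c‖ ^ 2 = ‖a - b - c‖ ^ 2 := by
  rw [← real_inner_self_eq_norm_sq, ← real_inner_self_eq_norm_sq]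
  simp only [inner_sub_left, inner_sub_right, inner_homExt f hf]

theorem homExt_add (f : sphere (0 : X) 1 → sphere (0 : Y) 1) (hf : Isometry f) (x y : X) :
    homExt f (x + y) = homExt f x + homExt f y := by
  have h := norm_sq_homExt_sub f hf (x + y) x y
  have e : x + y - x - y = 0 := by abel
  rw [e, norm_zero] at h
  have h1 : ‖homExt f (x + y) - homExt f x - homExt f y‖ = 0 := by
    have : (0 : ℝ) ^ 2 = 0 := by norm_num
    rw [this] at h
    exact pow_eq_zero_iff (two_ne_zero) |>.1 h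
  have h2 := norm_eq_zero.1 h1
  have h3 : homExt f (x + y) = homExt f (x + y) - homExt f x - homExt f y
      + (homExt f x + homExt f y) := by abel
  rw [h3, h2, zero_add]

theorem homExt_smul (f : sphere (0 : X) 1 → sphere (0 : Y) 1) (hf : Isometry f) (c : ℝ)
    (x : X) : homExt f (c • x) = c • homExt f x := by
  have h : ‖homExt f (c • x) - c • homExt f x‖ ^ 2 = 0 := by
    rw [← real_inner_self_eq_norm_sq]
    simp only [inner_sub_left, inner_sub_right, real_inner_smul_left, real_inner_smul_right,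
      inner_homExt f hf]
    ring
  have h1 : ‖homExt f (c • x) - c • homExt f x‖ = 0 := pow_eq_zero_iff (two_ne_zero) |>.1 h
  exact sub_eq_zero.1 (norm_eq_zero.1 h1)

theorem norm_homExt (f : sphere (0 : X) 1 → sphere (0 : Y) 1) (hf : Isometry f) (x : X) :
    ‖homExt f x‖ = ‖x‖ := by
  have h : ‖homExt f x‖ ^ 2 = ‖x‖ ^ 2 := by
    rw [← real_inner_self_eq_norm_sq, ← real_inner_self_eq_norm_sq, inner_homExt f hf]
  have h1 := abs_eq_abs.2 (sq_eq_sq_iff_eq_or_eq_neg.1 h)
  rwa [abs_of_nonneg (norm_nonneg _), abs_of_nonneg (norm_nonneg _)] at h1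

/-- the linear isometry extending `f` -/
noncomputable def linExt (f : sphere (0 : X) 1 → sphere (0 : Y) 1) (hf : Isometry f) :
    X →ₗᵢ[ℝ] Y where
  toFun := homExt f
  map_add' := homExt_add f hf
  map_smul' := homExt_smul f hf
  norm_map' := norm_homExt f hf

theorem linExt_coe (f : sphere (0 : X) 1 → sphere (0 : Y) 1) (hf : Isometry f)
    (u : sphere (0 : X) 1) : linExt f hf (u : X) = f u :=
  homExt_coe f u

theorem linExt_surjective (f : sphere (0 : X) 1 → sphere (0 : Y) 1) (hf : Isometry f)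
    (hs : Function.Surjective f) : Function.Surjective (linExt f hf) := by
  intro y
  by_cases hy : y = 0
  · exact ⟨0, by rw [hy, map_zero]⟩
  · obtain ⟨u, hu⟩ := hs ⟨_, normalize_mem y hy⟩
    refine ⟨‖y‖ • (u : X), ?_⟩
    rw [map_smul, linExt_coe, hu, smul_smul, mul_inv_cancel₀ (norm_ne_zero_iff.2 hy), one_smul]

theorem sphere_isometry_extends_inner (f : sphere (0 : X) 1 → sphere (0 : Y) 1)
    (hf : Isometry f) (hs : Function.Surjective f) :
    ∃ T : X ≃ₗᵢ[ℝ] Y, ∀ x : sphere (0 : X) 1, T x = f x :=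
  ⟨LinearIsometryEquiv.ofSurjective (linExt f hf) (linExt_surjective f hf hs), fun x => by
    rw [LinearIsometryEquiv.coe_ofSurjective]
    exact linExt_coe f hf x⟩

end inner

/-- every surjective isometry from the unit sphere of a real inner product space onto the unit
sphere of a real normed space is the restriction of a surjective linear isometry -/
theorem sphere_isometry_extends {X Y : Type*} [NormedAddCommGroup X] [InnerProductSpace ℝ X]
    [NormedAddCommGroup Y] [NormedSpace ℝ Y]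
    (f : sphere (0 : X) 1 → sphere (0 : Y) 1) (hf : Isometry f)
    (hs : Function.Surjective f) :
    ∃ T : X ≃ₗᵢ[ℝ] Y, ∀ x : sphere (0 : X) 1, T x = f x := by
  have hpar : ∀ x y : Y, ‖x + y‖ * ‖x + y‖ + ‖x - y‖ * ‖x - y‖
      = 2 * (‖x‖ * ‖x‖ + ‖y‖ * ‖y‖) := by
    intro x y
    have h := day_parallelogram (rhombus_of_sphere_isometry f hf hs) x y
    nlinarith
  let _ : InnerProductSpace ℝ Y := InnerProductSpace.ofNorm ℝ hpar
  exact sphere_isometry_extends_inner f hf hs

end Vale.Agent.Lib.P084
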